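import Mathlib.LinearAlgebra.QuadraticForm.Real
import Mathlib.Analysis.Normed.Module.FiniteDimension
import Mathlib.Analysis.Normed.Operator.BoundedLinearMaps

/-!
# Sylvester's normal form of a nondegenerate symmetric bilinear form
-/

open Set
namespace Vale.Agent.P265.H934

/-- A nondegenerate symmetric bilinear form is `-∑ uᵢ² + ∑ vⱼ²` in suitable linear
coordinates `(u, v)`. -/
theorem sylvester {E : Type*} [NormedAddCommGroup E] [NormedSpace ℝ E] [FiniteDimensional ℝ E]
    (B : E →L[ℝ] E →L[ℝ] ℝ) (hs : ∀ v w, B v w = B w v) (hn : ∀ v, (∀ w, B v w = 0) → v = 0) :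
    ∃ (p q : ℕ) (T : E ≃L[ℝ] (Fin p → ℝ) × (Fin q → ℝ)),
      ∀ v, B v v / 2 = -∑ i, (T v).1 i ^ 2 + ∑ j, (T v).2 j ^ 2 := by
  classical
  let B' : LinearMap.BilinMap ℝ E ℝ := LinearMap.mk₂ ℝ (fun v w => B v w / 2)
    (fun a b c => by simp [add_div]) (fun a b c => by simp [mul_div_assoc])
    (fun a b c => by simp [add_div]) (fun a b c => by simp [mul_div_assoc])
  have hB' : ∀ v w, B' v w = B v w / 2 := fun v w => rfl
  let Q : QuadraticForm ℝ E := LinearMap.BilinMap.toQuadraticMap B'
  have hQ : ∀ v, Q v = B v v / 2 := fun v => rfl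
  have hass : QuadraticMap.associated (R := ℝ) Q = B' := by
    apply QuadraticMap.associated_left_inverse
    intro v w
    simp only [hB']
    rw [hs v w]
  have hsep : (QuadraticMap.associated (R := ℝ) Q).SeparatingLeft := by
    rw [hass]
    intro v hv
    apply hn v
    intro w
    have := hv w
    rw [hB'] at this
    linarith
  obtain ⟨w, hw, ⟨e⟩⟩ := QuadraticForm.equivalent_one_neg_one_weighted_sum_squared Q hsep
  let s : Fin (Module.finrank ℝ E) → Prop := fun i => w i = -1
  let σ : Fin (Fintype.card {i // s i}) ⊕ Fin (Fintype.card {i // ¬ s i}) ≃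
      Fin (Module.finrank ℝ E) :=
    (Equiv.sumCongr (Fintype.equivFin {i // s i}).symm (Fintype.equivFin {i // ¬ s i}).symm).trans
      (Equiv.sumCompl s)
  let T : E ≃ₗ[ℝ] (Fin (Fintype.card {i // s i}) → ℝ) × (Fin (Fintype.card {i // ¬ s i}) → ℝ) :=
    (e.toLinearEquiv.trans (LinearEquiv.funCongrLeft ℝ ℝ σ)).trans
      (LinearEquiv.sumArrowLequivProdArrow _ _ ℝ ℝ)
  refine ⟨_, _, T.toContinuousLinearEquiv, fun v => ?_⟩
  have h1 : Q v = ∑ i, w i * (e v i * e v i) := by
    have h2 := e.map_app v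
    rw [QuadraticMap.weightedSumSquares_apply] at h2
    simpa using h2.symm
  rw [← hQ, h1, ← σ.sum_comp, Fintype.sum_sum_type, ← Finset.sum_neg_distrib]
  congr 1
  · apply Finset.sum_congr rfl
    intro i _
    have : w (σ (Sum.inl i)) = -1 := ((Fintype.equivFin {i // s i}).symm i).2
    rw [this]
    have : (T.toContinuousLinearEquiv v).1 i = e v (σ (Sum.inl i)) := rfl
    rw [this]
    ring
  · apply Finset.sum_congr rfl
    intro i _
    have : w (σ (Sum.inr i)) = 1 := by
      have h := ((Fintype.equivFin {i // ¬ s i}).symm i).2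
      rcases hw (σ (Sum.inr i)) with h' | h'
      · exact absurd h' h
      · exact h'
    rw [this]
    have : (T.toContinuousLinearEquiv v).2 i = e v (σ (Sum.inr i)) := rfl
    rw [this]
    ring

end Vale.Agent.P265.H934
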