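import Mathlib.Analysis.Calculus.BumpFunction.FiniteDimension
import Mathlib.Analysis.Calculus.BumpFunction.InnerProduct
import Mathlib.Analysis.Calculus.FDeriv.Symmetric
import Mathlib.Analysis.Calculus.MeanValue
import Vale.Agent.P265.H934.Sylvester

/-!
# Making a function quadratic near a nondegenerate critical point
-/

open Set Metric
open scoped ContDiff Topology

namespace Vale.Agent.P265.H934

variable {E : Type*} [NormedAddCommGroup E] [NormedSpace ℝ E] [FiniteDimensional ℝ E]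

/-- A fixed smooth cut-off function with bounded derivative. -/
theorem exists_cutoff (E : Type*) [NormedAddCommGroup E] [NormedSpace ℝ E]
    [FiniteDimensional ℝ E] : ∃ (χ : E → ℝ) (C : ℝ), ContDiff ℝ ∞ χ ∧
    (∀ y, ‖y‖ ≤ 1 / 2 → χ y = 1) ∧ (∀ y, 1 ≤ ‖y‖ → χ y = 0) ∧ (∀ y, 0 ≤ χ y ∧ χ y ≤ 1) ∧
    0 ≤ C ∧ ∀ y, ‖fderiv ℝ χ y‖ ≤ C := by
  let b : ContDiffBump (0 : E) := ⟨1 / 2, 1, by norm_num, by norm_num⟩
  have hb : ContDiff ℝ ∞ b := b.contDiff
  have hc : Continuous (fderiv ℝ b) := (hb.continuous_fderiv (by simp))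
  have hcs : HasCompactSupport (fderiv ℝ b) := b.hasCompactSupport.fderiv ℝ
  obtain ⟨C, hC⟩ := hcs.exists_bound_of_continuous hc
  refine ⟨b, C, hb, ?_, ?_, fun y => ⟨b.nonneg, b.le_one⟩, ?_, hC⟩
  · intro y hy
    exact b.one_of_mem_closedBall (by rw [mem_closedBall_zero_iff]; exact hy)
  · intro y hy
    exact b.zero_of_le_dist (by rw [dist_zero_right]; exact hy)
  · exact (norm_nonneg _).trans (hC 0)

/-- Near a nondegenerate critical point, `f` can be replaced by a quadratic function plus a small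
constant, without creating new critical points. -/
theorem bump {f : E → ℝ} {U : Set E} (hU : IsOpen U) {x : E} (hx : x ∈ U)
    (hf : ContDiffOn ℝ ∞ f U) (hcrit : fderiv ℝ f x = 0)
    (hnd : ∀ v, (∀ w, fderiv ℝ (fun y => fderiv ℝ f y w) x v = 0) → v = 0) :
    ∃ (p q : ℕ) (T : E ≃L[ℝ] (Fin p → ℝ) × (Fin q → ℝ)), ∃ r₀ > 0, ∀ r, 0 < r → r ≤ r₀ →
      closedBall x r ⊆ U ∧ (∀ y, ‖y - x‖ ≤ r → (fderiv ℝ f y = 0 ↔ y = x)) ∧ ∃ c > 0, ∀ a, |a| ≤ c → ∃ g : E → ℝ, ContDiffOn ℝ ∞ g U ∧
        (∀ y, r ≤ ‖y - x‖ → g y = f y) ∧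
        (∀ y, ‖y - x‖ ≤ r / 2 →
          g y = f x + a - ∑ i, (T (y - x)).1 i ^ 2 + ∑ j, (T (y - x)).2 j ^ 2) ∧
        ∀ y, ‖y - x‖ ≤ r → (fderiv ℝ g y = 0 ↔ y = x) := by
  have hfx : ContDiffAt ℝ ∞ f x := hf.contDiffAt (hU.mem_nhds hx)
  -- the second derivative
  have hdd : DifferentiableAt ℝ (fderiv ℝ f) x :=
    (hfx.fderiv_right (m := 1) (by norm_cast)).differentiableAt (by simp)
  set B : E →L[ℝ] E →L[ℝ] ℝ := fderiv ℝ (fderiv ℝ f) x with hB
  have hBd : HasFDerivAt (fderiv ℝ f) B x := hdd.hasFDerivAt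
  have hBs : ∀ v w, B v w = B w v := fun v w =>
    (hfx.isSymmSndFDerivAt (by simp; norm_cast)) v w
  have hBn : ∀ v, (∀ w, B v w = 0) → v = 0 := by
    intro v hv
    apply hnd v
    intro w
    have : fderiv ℝ (fun y => fderiv ℝ f y w) x = (fderiv ℝ (fderiv ℝ f) x).flip w := by
      have := (hBd.clm_apply (hasFDerivAt_const w x)).fderiv
      rw [this]
      ext z
      simp [hB]
    rw [this]
    exact hv w
  obtain ⟨p, q, T, hT⟩ := sylvester B hBs hBn
  refine ⟨p, q, T, ?_⟩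
  -- lower bound for `B`
  have hker : LinearMap.ker (B : E →ₗ[ℝ] E →L[ℝ] ℝ) = ⊥ := by
    rw [LinearMap.ker_eq_bot']
    intro v hv
    exact hBn v fun w => by
      have : B v = 0 := hv
      rw [this]; rfl
  obtain ⟨K, hK0, hK⟩ := LinearMap.exists_antilipschitzWith (B : E →ₗ[ℝ] E →L[ℝ] ℝ) hker
  set m : ℝ := (K : ℝ)⁻¹ with hm
  have hm0 : 0 < m := by positivity
  have hBm : ∀ v, m * ‖v‖ ≤ ‖B v‖ := by
    intro v
    have h' : ‖v‖ ≤ K * ‖B v‖ := by
      have h := hK.le_mul_dist v 0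
      rw [map_zero, dist_zero_right, dist_zero_right] at h
      exact h
    rw [hm, inv_mul_le_iff₀ (by positivity)]
    exact h'
  obtain ⟨χ, C, hχ, hχ1, hχ0, hχb, hC0, hC⟩ := exists_cutoff E
  -- the quadratic model and the remainder
  let Q : E → ℝ := fun y => f x + B (y - x) (y - x) / 2
  have hQd : ∀ y, HasFDerivAt Q (B (y - x)) y := by
    intro y
    have h1 : HasFDerivAt (fun y : E => y - x) (ContinuousLinearMap.id ℝ E) y :=
      (hasFDerivAt_id y).sub_const x
    have h2 := (B.hasFDerivAt.comp y h1).clm_apply h1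
    have h3 := (h2.mul_const (1 / 2 : ℝ)).const_add (f x)
    refine (h3.congr_fderiv ?_).congr_of_eventuallyEq (Filter.Eventually.of_forall fun z => ?_)
    · ext v
      have hv := hBs v (y - x)
      simp only [map_sub, sub_apply] at hv
      simp
      linarith
    · simp [Q, div_eq_mul_inv]
  have hQs : ContDiff ℝ ∞ Q := by
    have h1 : ContDiff ℝ ∞ (fun y : E => y - x) := contDiff_id.sub contDiff_const
    have h2 : ContDiff ℝ ∞ (fun y : E => B (y - x)) := B.contDiff.comp h1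
    exact contDiff_const.add ((h2.clm_apply h1).div_const 2)
  let h : E → ℝ := fun y => f y - Q y
  have hhs : ContDiffOn ℝ ∞ h U := hf.sub hQs.contDiffOn
  have hfd : ∀ y ∈ U, HasFDerivAt f (fderiv ℝ f y) y := fun y hy =>
    ((hf.contDiffAt (hU.mem_nhds hy)).differentiableAt (by simp)).hasFDerivAt
  have hhd : ∀ y ∈ U, HasFDerivAt h (fderiv ℝ f y - B (y - x)) y := fun y hy =>
    (hfd y hy).sub (hQd y)
  -- small constants
  set ε : ℝ := m / (8 * (1 + C)) with hε
  have hε0 : 0 < ε := by positivity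
  have hεC : ε * (1 + C) = m / 8 := by rw [hε]; field_simp
  have hlit := hBd.isLittleO
  rw [Asymptotics.isLittleO_iff] at hlit
  have hlit' := hlit hε0
  rw [Metric.eventually_nhds_iff] at hlit'
  obtain ⟨δ, hδ0, hδ⟩ := hlit'
  obtain ⟨δ', hδ'0, hδ'⟩ := Metric.isOpen_iff.1 hU x hx
  refine ⟨min δ δ' / 2, by positivity, fun r hr0 hr => ?_⟩
  have hrδ : r < δ := by
    have := min_le_left δ δ'
    have : 0 < min δ δ' := lt_min hδ0 hδ'0
    linarith
  have hrδ' : r < δ' := by
    have := min_le_right δ δ'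
    have : 0 < min δ δ' := lt_min hδ0 hδ'0
    linarith
  have hsub : closedBall x r ⊆ U := fun y hy =>
    hδ' (lt_of_le_of_lt hy hrδ')
  have hhb : ∀ y, ‖y - x‖ ≤ r → ‖fderiv ℝ f y - B (y - x)‖ ≤ ε * ‖y - x‖ := by
    intro y hy
    have := hδ (y := y) (by rw [dist_eq_norm]; linarith)
    simpa [hcrit] using this
  have hεm : ε < m := by
    have : ε * 1 ≤ ε * (1 + C) := by gcongr; linarith
    linarith
  refine ⟨hsub, fun y hy => ⟨fun h0 => ?_, ?_⟩, m * r ^ 2 / (8 * (1 + C)), by positivity,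
    fun a ha => ?_⟩
  · have h1 := hhb y hy
    rw [h0, zero_sub, norm_neg] at h1
    have h2 := hBm (y - x)
    have h3 : (m - ε) * ‖y - x‖ ≤ 0 := by linarith
    have h4 : ‖y - x‖ ≤ 0 := by
      by_contra h5
      have := mul_pos (sub_pos.2 hεm) (not_le.1 h5)
      linarith
    exact sub_eq_zero.1 (norm_le_zero_iff.1 h4)
  · rintro rfl
    exact hcrit
  have hhx : h x = 0 := by simp [h, Q]
  have hhv : ∀ y, ‖y - x‖ ≤ r → |h y| ≤ ε * r ^ 2 := by
    intro y hy
    have h1 := (convex_closedBall x r).norm_image_sub_le_of_norm_hasFDerivWithin_le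
      (f := h) (f' := fun y => fderiv ℝ f y - B (y - x)) (C := ε * r)
      (fun z hz => (hhd z (hsub hz)).hasFDerivWithinAt)
      (fun z hz => (hhb z (by simpa [dist_eq_norm] using hz)).trans
        (mul_le_mul_of_nonneg_left (by simpa [dist_eq_norm] using hz) hε0.le))
      (mem_closedBall_self hr0.le) (by simpa [dist_eq_norm] using hy : y ∈ closedBall x r)
    rw [hhx, sub_zero, Real.norm_eq_abs] at h1
    calc |h y| ≤ ε * r * ‖y - x‖ := h1
      _ ≤ ε * r * r := by gcongr
      _ = ε * r ^ 2 := by ring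
  -- the cut-off function at scale `r`
  let ψ : E → ℝ := fun y => χ (r⁻¹ • (y - x))
  have hlin : ∀ y, HasFDerivAt (fun y : E => r⁻¹ • (y - x)) (r⁻¹ • ContinuousLinearMap.id ℝ E) y :=
    fun y => ((hasFDerivAt_id y).sub_const x).const_smul r⁻¹
  have hψs : ContDiff ℝ ∞ ψ := hχ.comp ((contDiff_id.sub contDiff_const).const_smul r⁻¹)
  have hψd : ∀ y, HasFDerivAt ψ (r⁻¹ • fderiv ℝ χ (r⁻¹ • (y - x))) y := by
    intro y
    have h1 : HasFDerivAt χ (fderiv ℝ χ (r⁻¹ • (y - x))) (r⁻¹ • (y - x)) :=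
      (hχ.differentiable (by simp) _).hasFDerivAt
    refine (h1.comp y (hlin y)).congr_fderiv ?_
    ext v
    simp
  have hnr : ∀ y, ‖r⁻¹ • (y - x)‖ = ‖y - x‖ / r := by
    intro y
    rw [norm_smul, norm_inv, Real.norm_of_nonneg hr0.le]
    field_simp
  have hψ1 : ∀ y, ‖y - x‖ ≤ r / 2 → ψ y = 1 := by
    intro y hy
    apply hχ1
    rw [hnr, div_le_iff₀ hr0]
    linarith
  have hψ0 : ∀ y, r ≤ ‖y - x‖ → ψ y = 0 := by
    intro y hy
    apply hχ0
    rw [hnr, le_div_iff₀ hr0]
    linarith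
  have hψb : ∀ y, 0 ≤ ψ y ∧ ψ y ≤ 1 := fun y => hχb _
  let g : E → ℝ := fun y => f y - ψ y * (h y - a)
  have hgs : ContDiffOn ℝ ∞ g U :=
    hf.sub (hψs.contDiffOn.mul (hhs.sub contDiffOn_const))
  have hgd : ∀ y ∈ U, HasFDerivAt g (B (y - x) + (1 - ψ y) • (fderiv ℝ f y - B (y - x))
      - (h y - a) • (r⁻¹ • fderiv ℝ χ (r⁻¹ • (y - x)))) y := by
    intro y hy
    have h1 := (hfd y hy).sub ((hψd y).mul ((hhd y hy).sub_const a))
    refine h1.congr_fderiv ?_
    ext v
    simp
    ring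
  refine ⟨g, hgs, ?_, ?_, ?_⟩
  · intro y hy
    simp [g, hψ0 y hy]
  · intro y hy
    simp only [g, hψ1 y hy, h, Q]
    have := hT (y - x)
    linarith
  · intro y hy
    have hyU : y ∈ U := hsub (by simpa [dist_eq_norm] using hy)
    rcases lt_or_ge ‖y - x‖ (r / 2) with hlt | hge
    · -- inside, `g` is quadratic
      have hev : g =ᶠ[𝓝 y] fun z => Q z + a := by
        have : ∀ᶠ z in 𝓝 y, ‖z - x‖ < r / 2 := by
          have hcont : Continuous fun z : E => ‖z - x‖ := by fun_prop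
          exact hcont.continuousAt.eventually_lt_const hlt
        filter_upwards [this] with z hz
        simp only [g, hψ1 z hz.le, h]
        ring
      have h2 : fderiv ℝ g y = B (y - x) := by
        rw [hev.fderiv_eq]
        exact ((hQd y).add_const a).fderiv
      rw [h2]
      constructor
      · intro h3
        have := hBn (y - x) (fun w => by rw [h3]; rfl)
        exact sub_eq_zero.1 this
      · rintro rfl
        simp
    · have hyx : y ≠ x := by
        rintro rfl
        simp at hge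
        linarith
      simp only [hyx, iff_false]
      rw [(hgd y hyU).fderiv]
      intro h0
      have h1 : B (y - x) = (h y - a) • (r⁻¹ • fderiv ℝ χ (r⁻¹ • (y - x)))
          - (1 - ψ y) • (fderiv ℝ f y - B (y - x)) := by
        have := h0
        rw [sub_eq_zero] at this
        rw [← this]
        abel
      have h2 : ‖B (y - x)‖ ≤ (ε * r ^ 2 + |a|) * (r⁻¹ * C) + ε * r := by
        rw [h1]
        refine (norm_sub_le _ _).trans (add_le_add ?_ ?_)
        · rw [norm_smul, norm_smul, norm_inv, Real.norm_of_nonneg hr0.le, Real.norm_eq_abs]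
          have h3 : |h y - a| ≤ ε * r ^ 2 + |a| :=
            (abs_sub _ _).trans (add_le_add (hhv y hy) le_rfl)
          have h4 := hC (r⁻¹ • (y - x))
          gcongr
        · rw [norm_smul, Real.norm_eq_abs]
          have h3 : |1 - ψ y| ≤ 1 := by
            rw [abs_le]
            constructor <;> linarith [(hψb y).1, (hψb y).2]
          calc |1 - ψ y| * ‖fderiv ℝ f y - B (y - x)‖ ≤ 1 * (ε * ‖y - x‖) :=
                mul_le_mul h3 (hhb y hy) (norm_nonneg _) zero_le_one
            _ ≤ 1 * (ε * r) := by gcongr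
            _ = ε * r := one_mul _
      have h3 := hBm (y - x)
      have h4 : m * (r / 2) ≤ m * ‖y - x‖ := by gcongr
      have h5 : |a| * (1 + C) ≤ m * r ^ 2 / 8 := by
        calc |a| * (1 + C) ≤ m * r ^ 2 / (8 * (1 + C)) * (1 + C) := by gcongr
          _ = m * r ^ 2 / 8 := by field_simp
      have h6 : (ε * r ^ 2 + |a|) * (r⁻¹ * C) + ε * r ≤ m / 8 * r + m / 8 * r := by
        have h7 : |a| * (r⁻¹ * C) ≤ m / 8 * r := by
          have : |a| * C ≤ m * r ^ 2 / 8 := by nlinarith [abs_nonneg a]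
          calc |a| * (r⁻¹ * C) = (|a| * C) * r⁻¹ := by ring
            _ ≤ (m * r ^ 2 / 8) * r⁻¹ := by gcongr
            _ = m / 8 * r := by field_simp
        have h8 : ε * r ^ 2 * (r⁻¹ * C) + ε * r = m / 8 * r := by
          rw [← hεC]
          field_simp
          ring
        linarith
      have h9 : 0 < m * r := by positivity
      linarith
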