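import Vale.Agent.P265.Flat.LDefs
import Vale.Agent.P265.H934.Bump

/-!
# Standard form of a Morse function near its critical points
-/

open Set Metric Manifold
open scoped ContDiff Topology

namespace Vale.Agent.P265.H934

open Vale.Agent.P265.Loc

variable {E : Type*} [NormedAddCommGroup E] [NormedSpace ℝ E]
  {H : Type*} [TopologicalSpace H] {I : ModelWithCorners ℝ E H}
  {X : Type*} [TopologicalSpace X] [ChartedSpace H X]

/-- A point in a chart domain is critical iff its image is critical for the function read in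
the chart. -/
theorem mem_Crit_iff [I.Boundaryless] [IsManifold I ∞ X] {F : X → ℝ}
    (hF : ContMDiff I 𝓘(ℝ, ℝ) ∞ F) (x : X) {y : X} (hy : y ∈ (extChartAt I x).source) :
    y ∈ Crit I F ↔ fderiv ℝ (F ∘ (extChartAt I x).symm) (extChartAt I x y) = 0 := by
  have hz : extChartAt I x y ∈ (extChartAt I x).target := (extChartAt I x).map_source hy
  have hs : MDifferentiableAt 𝓘(ℝ, E) I (extChartAt I x).symm (extChartAt I x y) :=
    ((contMDiffOn_extChartAt_symm (n := ∞) x).contMDiffAt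
      (extChartAt_target_mem_nhds' hz)).mdifferentiableAt (by simp)
  have hc : MDifferentiableAt I 𝓘(ℝ, E) (extChartAt I x) y := by
    refine (contMDiffAt_extChartAt' (n := ∞) ?_).mdifferentiableAt (by simp)
    rwa [extChartAt_source] at hy
  have hleft : (extChartAt I x).symm (extChartAt I x y) = y := (extChartAt I x).left_inv hy
  have hFd : MDifferentiable I 𝓘(ℝ, ℝ) F := hF.mdifferentiable (by simp)
  have hFs : MDifferentiableAt 𝓘(ℝ, E) 𝓘(ℝ, ℝ) (F ∘ (extChartAt I x).symm)
      (extChartAt I x y) := (hFd _).comp _ hs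
  rw [← mfderiv_eq_fderiv]
  constructor
  · intro h
    have h1 := mfderiv_comp (extChartAt I x y) (hFd _) hs
    rw [h1]
    have h2 : mfderiv I 𝓘(ℝ, ℝ) F ((extChartAt I x).symm (extChartAt I x y)) = 0 := by
      rw [hleft]
      exact h
    rw [h2]
    exact ContinuousLinearMap.zero_comp _
  · intro h
    have h1 := mfderiv_comp y (g := F ∘ (extChartAt I x).symm) hFs hc
    have h3 : (F ∘ (extChartAt I x).symm) ∘ extChartAt I x =ᶠ[𝓝 y] F := by
      filter_upwards [extChartAt_source_mem_nhds' hy] with z hz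
      change F ((extChartAt I x).symm (extChartAt I x z)) = F z
      rw [(extChartAt I x).left_inv hz]
    rw [h3.mfderiv_eq, h] at h1
    refine Eq.trans h1 ?_
    exact ContinuousLinearMap.zero_comp _

/-- Criticality only depends on the germ. -/
theorem mem_Crit_congr {F F' : X → ℝ} {y : X} (h : F' =ᶠ[𝓝 y] F) :
    y ∈ Crit I F' ↔ y ∈ Crit I F := by
  change mfderiv I 𝓘(ℝ, ℝ) F' y = 0 ↔ mfderiv I 𝓘(ℝ, ℝ) F y = 0
  rw [h.mfderiv_eq, h.eq_of_nhds]

/-- Modification near one nondegenerate critical point. -/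
theorem one_step [FiniteDimensional ℝ E] [I.Boundaryless] [T2Space X] [IsManifold I ∞ X]
    {F : X → ℝ} (hF : ContMDiff I 𝓘(ℝ, ℝ) ∞ F) {x : X} (hx : x ∈ Crit I F)
    (hnd : HessNondeg I F x) {U : Set X} (hU : U ∈ 𝓝 x) :
    ∃ (p q : ℕ) (T : E ≃L[ℝ] (Fin p → ℝ) × (Fin q → ℝ)) (r : ℝ) (K : Set X) (c : ℝ),
      0 < r ∧ 0 < c ∧ IsCompact K ∧ K ⊆ U ∧
      (∀ y, ‖T (y - extChartAt I x x)‖ ≤ r → y ∈ (extChartAt I x).target ∧
        (extChartAt I x).symm y ∈ K) ∧
      ∀ a, |a| ≤ c → ∃ F' : X → ℝ, ContMDiff I 𝓘(ℝ, ℝ) ∞ F' ∧ (∀ y ∉ K, F' y = F y) ∧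
        Crit I F' = Crit I F ∧ F' x = F x + a ∧
        ∀ y, ‖T (y - extChartAt I x x)‖ ≤ r → F' ((extChartAt I x).symm y) =
          F x + a - ∑ i, (T (y - extChartAt I x x)).1 i ^ 2 +
            ∑ j, (T (y - extChartAt I x x)).2 j ^ 2 := by
  classical
  set φ := extChartAt I x with hφ
  have hxs : x ∈ φ.source := mem_extChartAt_source x
  have hφx : φ.symm (φ x) = x := φ.left_inv hxs
  set f : E → ℝ := F ∘ φ.symm with hf
  set V : Set E := φ.target ∩ φ.symm ⁻¹' (interior U) with hV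
  have hVo : IsOpen V := (continuousOn_extChartAt_symm x).isOpen_inter_preimage
    (isOpen_extChartAt_target x) isOpen_interior
  have hVt : V ⊆ φ.target := inter_subset_left
  have hxV : φ x ∈ V := by
    refine ⟨φ.map_source hxs, ?_⟩
    change φ.symm (φ x) ∈ interior U
    rw [hφx]
    exact mem_interior_iff_mem_nhds.2 hU
  have hft : ContDiffOn ℝ ∞ f φ.target := by
    rw [← contMDiffOn_iff_contDiffOn]
    exact hF.comp_contMDiffOn (contMDiffOn_extChartAt_symm x)
  have hcr : fderiv ℝ f (φ x) = 0 := (mem_Crit_iff hF x hxs).1 hx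
  obtain ⟨p, q, T, r₀, hr₀, hb⟩ := bump hVo hxV (hft.mono hVt) hcr hnd
  obtain ⟨hball, hfcr, c, hc, hg⟩ := hb r₀ hr₀ le_rfl
  have : ProperSpace E := FiniteDimensional.proper_real E
  have hKc : IsCompact (φ.symm '' closedBall (φ x) r₀) :=
    (isCompact_closedBall _ _).image_of_continuousOn
      ((continuousOn_extChartAt_symm x).mono (hball.trans hVt))
  have hnorm : ∀ y, ‖T (y - φ x)‖ ≤ r₀ / (2 * (‖(T.symm : ((Fin p → ℝ) × (Fin q → ℝ)) →L[ℝ] E)‖ + 1)) →
      ‖y - φ x‖ ≤ r₀ / 2 := by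
    intro y hy
    have h1 : ‖y - φ x‖ ≤ ‖(T.symm : ((Fin p → ℝ) × (Fin q → ℝ)) →L[ℝ] E)‖ * ‖T (y - φ x)‖ := by
      have := (T.symm : ((Fin p → ℝ) × (Fin q → ℝ)) →L[ℝ] E).le_opNorm (T (y - φ x))
      simpa using this
    have h2 : (0 : ℝ) ≤ ‖(T.symm : ((Fin p → ℝ) × (Fin q → ℝ)) →L[ℝ] E)‖ := norm_nonneg _
    calc ‖y - φ x‖ ≤ ‖(T.symm : ((Fin p → ℝ) × (Fin q → ℝ)) →L[ℝ] E)‖ * ‖T (y - φ x)‖ := h1
      _ ≤ (‖(T.symm : ((Fin p → ℝ) × (Fin q → ℝ)) →L[ℝ] E)‖ + 1) * (r₀ / (2 * (‖(T.symm : ((Fin p → ℝ) × (Fin q → ℝ)) →L[ℝ] E)‖ + 1))) := by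
        gcongr
        linarith
      _ = r₀ / 2 := by field_simp
  refine ⟨p, q, T, r₀ / (2 * (‖(T.symm : ((Fin p → ℝ) × (Fin q → ℝ)) →L[ℝ] E)‖ + 1)), φ.symm '' closedBall (φ x) r₀, c,
    by positivity, hc, hKc, ?_, ?_, ?_⟩
  · rintro _ ⟨y, hy, rfl⟩
    exact interior_subset (hball hy).2
  · intro y hy
    have h1 : y ∈ closedBall (φ x) r₀ := by
      rw [mem_closedBall, dist_eq_norm]
      linarith [hnorm y hy]
    exact ⟨hVt (hball h1), mem_image_of_mem _ h1⟩
  intro a ha
  obtain ⟨g, hgs, hgout, hgin, hgcr⟩ := hg a ha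
  let F' : X → ℝ := fun z => if z ∈ φ.source then g (φ z) else F z
  have hKs : φ.symm '' closedBall (φ x) r₀ ⊆ φ.source := by
    rintro _ ⟨y, hy, rfl⟩
    exact φ.map_target (hVt (hball hy))
  have hout : ∀ z ∉ φ.symm '' closedBall (φ x) r₀, F' z = F z := by
    intro z hz
    by_cases hzs : z ∈ φ.source
    · simp only [F', if_pos hzs]
      rw [hgout]
      · simp only [hf, Function.comp_apply, φ.left_inv hzs]
      · by_contra hlt
        exact hz ⟨φ z, by rw [mem_closedBall, dist_eq_norm]; exact (not_le.1 hlt).le,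
          φ.left_inv hzs⟩
    · simp only [F', if_neg hzs]
  have hsrc : ∀ z ∈ φ.source, F' =ᶠ[𝓝 z] fun z => g (φ z) := by
    intro z hz
    filter_upwards [(isOpen_extChartAt_source x).mem_nhds hz] with w hw
    simp only [F']
    rw [if_pos hw]
  have hoff : ∀ z ∉ φ.symm '' closedBall (φ x) r₀, F' =ᶠ[𝓝 z] F := by
    intro z hz
    filter_upwards [hKc.isClosed.isOpen_compl.mem_nhds hz] with w hw
    exact hout w hw
  have hF's : ContMDiff I 𝓘(ℝ, ℝ) ∞ F' := by
    intro z
    by_cases hz : z ∈ φ.symm '' closedBall (φ x) r₀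
    · refine ContMDiffAt.congr_of_eventuallyEq ?_ (hsrc z (hKs hz))
      have hz' : φ z ∈ closedBall (φ x) r₀ := by
        obtain ⟨y, hy, rfl⟩ := hz
        rwa [φ.right_inv (hVt (hball hy))]
      have h1 : ContMDiffAt 𝓘(ℝ, E) 𝓘(ℝ, ℝ) ∞ g (φ z) :=
        (hgs.contDiffAt (hVo.mem_nhds (hball hz'))).contMDiffAt
      have h2 : ContMDiffAt I 𝓘(ℝ, E) ∞ φ z := by
        apply contMDiffAt_extChartAt'
        have := hKs hz
        rwa [hφ, extChartAt_source] at this
      exact h1.comp z h2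
    · exact (hF z).congr_of_eventuallyEq (hoff z hz)
  refine ⟨F', hF's, hout, ?_, ?_, ?_⟩
  · ext z
    by_cases hz : z ∈ φ.symm '' closedBall (φ x) r₀
    · have hzs := hKs hz
      have hz' : φ z ∈ closedBall (φ x) r₀ := by
        obtain ⟨y, hy, rfl⟩ := hz
        rwa [φ.right_inv (hVt (hball hy))]
      have hz'' : ‖φ z - φ x‖ ≤ r₀ := by
        rwa [mem_closedBall, dist_eq_norm] at hz'
      rw [mem_Crit_iff hF's x hzs, mem_Crit_iff hF x hzs]
      have h1 : (F' ∘ φ.symm) =ᶠ[𝓝 (φ z)] g := by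
        filter_upwards [(isOpen_extChartAt_target x).mem_nhds (φ.map_source hzs)] with w hw
        simp only [F', Function.comp_apply]
        rw [if_pos (φ.map_target hw), φ.right_inv hw]
      rw [← hφ, h1.fderiv_eq, hgcr _ hz'', hfcr _ hz'']
    · exact mem_Crit_congr (hoff z hz)
  · simp only [F', if_pos hxs]
    rw [hgin (φ x) (by simp; positivity)]
    simp [hf, hφx]
  · intro y hy
    have h1 := hnorm y hy
    have h2 : y ∈ closedBall (φ x) r₀ := by
      rw [mem_closedBall, dist_eq_norm]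
      linarith
    have h3 : y ∈ φ.target := hVt (hball h2)
    simp only [F', if_pos (φ.map_target h3), φ.right_inv h3]
    rw [hgin y h1]
    simp [hf, hφx]

/-- Small perturbations making the values at finitely many points distinct. -/
theorem exists_distinct {X : Type*} {S : Set X} (hS : S.Finite) (v c : X → ℝ)
    (hc : ∀ x ∈ S, 0 < c x) :
    ∃ a : X → ℝ, (∀ x ∈ S, |a x| ≤ c x) ∧ InjOn (fun x => v x + a x) S := by
  classical
  induction S, hS using Set.Finite.induction_on with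
  | empty => exact ⟨0, by simp, by simp⟩
  | @insert x S hx hS ih =>
    obtain ⟨a, ha, hinj⟩ := ih fun y hy => hc y (mem_insert_of_mem _ hy)
    have hcx : 0 < c x := hc x (mem_insert _ _)
    have hinf : (Ioo 0 (c x)).Infinite := Ioo_infinite hcx
    have hfin : ((fun y => v y + a y - v x) '' S).Finite := hS.image _
    obtain ⟨t, ht, htS⟩ := hinf.exists_notMem_finite hfin
    have hax : ∀ y ∈ S, Function.update a x t y = a y := by
      intro y hy
      rw [Function.update_of_ne]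
      rintro rfl
      exact hx hy
    refine ⟨Function.update a x t, ?_, ?_⟩
    · intro y hy
      rcases hy with rfl | hy
      · rw [Function.update_self, abs_of_pos ht.1]
        exact ht.2.le
      · rw [hax y hy]
        exact ha y hy
    · rw [injOn_insert hx]
      refine ⟨fun y hy z hz h => ?_, ?_⟩
      · simp only [hax y hy, hax z hz] at h
        exact hinj hy hz h
      · rintro ⟨y, hy, h⟩
        simp only [hax y hy, Function.update_self] at h
        apply htS
        exact ⟨y, hy, by simp only; linarith⟩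

/-- Every Morse function with finitely many critical points can be modified near them so that it
is standard near each of them and has distinct critical values, without changing its critical
points. -/
theorem exists_standard [FiniteDimensional ℝ E] [I.Boundaryless] [T2Space X] [IsManifold I ∞ X]
    {F : X → ℝ} (hF : IsMorse I F) (hfin : (Crit I F).Finite) (U : X → Set X)
    (hU : ∀ x ∈ Crit I F, U x ∈ 𝓝 x) :
    ∃ F' : X → ℝ, ContMDiff I 𝓘(ℝ, ℝ) ∞ F' ∧ Crit I F' = Crit I F ∧
      (∀ y, (∀ x ∈ Crit I F, y ∉ U x) → F' y = F y) ∧ InjOn F' (Crit I F) ∧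
      ∀ x ∈ Crit I F, ∃ (p q : ℕ) (T : E ≃L[ℝ] (Fin p → ℝ) × (Fin q → ℝ)) (r : ℝ), 0 < r ∧
        ∀ y, ‖T (y - extChartAt I x x)‖ ≤ r → y ∈ (extChartAt I x).target ∧
          (extChartAt I x).symm y ∈ U x ∧ F' ((extChartAt I x).symm y) =
          F' x - ∑ i, (T (y - extChartAt I x x)).1 i ^ 2 +
            ∑ j, (T (y - extChartAt I x x)).2 j ^ 2 := by
  classical
  obtain ⟨W, hW, hWd⟩ := hfin.t2_separation
  have hUW : ∀ x ∈ Crit I F, U x ∩ W x ∈ 𝓝 x := fun x hx =>
    Filter.inter_mem (hU x hx) ((hW x).2.mem_nhds (hW x).1)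
  have hstep := fun x hx => one_step hF.1 (x := x) hx (hF.2 x hx) (hUW x hx)
  choose! p q T r K c hr hc hKc hKU hbox hmod using hstep
  obtain ⟨a, ha, hinj⟩ := exists_distinct hfin F c hc
  have hmod' := fun x hx => hmod x hx (a x) (ha x hx)
  choose! G hGs hGout hGcr hGx hGstd using hmod'
  let F' : X → ℝ := fun y => F y + ∑ x ∈ hfin.toFinset, (G x y - F y)
  have hWK : ∀ x ∈ Crit I F, ∀ y ∈ W x, ∀ z ∈ Crit I F, z ≠ x → y ∉ K z := by
    intro x hx y hy z hz hzx hyK
    exact (Set.disjoint_left.1 (hWd hz hx hzx)) (hKU z hz hyK).2 hy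
  have hin : ∀ x ∈ Crit I F, ∀ y ∈ W x, F' y = G x y := by
    intro x hx y hy
    have : ∑ z ∈ hfin.toFinset, (G z y - F y) = G x y - F y := by
      apply Finset.sum_eq_single_of_mem x (hfin.mem_toFinset.2 hx)
      intro z hz hzx
      rw [hGout z (hfin.mem_toFinset.1 hz) y (hWK x hx y hy z (hfin.mem_toFinset.1 hz) hzx),
        sub_self]
    simp only [F', this]
    ring
  have hin' : ∀ x ∈ Crit I F, ∀ y ∈ W x, F' =ᶠ[𝓝 y] G x := by
    intro x hx y hy
    filter_upwards [(hW x).2.mem_nhds hy] with z hz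
    exact hin x hx z hz
  have hout : ∀ y, (∀ x ∈ Crit I F, y ∉ K x) → F' y = F y := by
    intro y hy
    have : ∑ z ∈ hfin.toFinset, (G z y - F y) = 0 := by
      apply Finset.sum_eq_zero
      intro z hz
      rw [hGout z (hfin.mem_toFinset.1 hz) y (hy z (hfin.mem_toFinset.1 hz)), sub_self]
    simp only [F', this, add_zero]
  have hout' : ∀ y, (∀ x ∈ Crit I F, y ∉ K x) → F' =ᶠ[𝓝 y] F := by
    intro y hy
    have hcl : IsClosed (⋃ x ∈ Crit I F, K x) :=
      hfin.isClosed_biUnion fun x hx => (hKc x hx).isClosed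
    have hmem : y ∈ (⋃ x ∈ Crit I F, K x)ᶜ := by
      simp only [mem_compl_iff, mem_iUnion, not_exists]
      exact fun x hx => hy x hx
    filter_upwards [hcl.isOpen_compl.mem_nhds hmem] with z hz
    apply hout z
    intro x hx hzK
    exact hz (mem_biUnion hx hzK)
  refine ⟨F', ?_, ?_, ?_, ?_, ?_⟩
  · have h1 : ContMDiff I 𝓘(ℝ, ℝ) ∞ (fun y => ∑ x ∈ hfin.toFinset, (G x y - F y)) := by
      apply contMDiff_finsetSum
      intro x hx
      exact (hGs x (hfin.mem_toFinset.1 hx)).sub hF.1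
    exact hF.1.add h1
  · ext y
    by_cases hy : ∃ x ∈ Crit I F, y ∈ W x
    · obtain ⟨x, hx, hyW⟩ := hy
      rw [mem_Crit_congr (hin' x hx y hyW), hGcr x hx]
    · push Not at hy
      exact mem_Crit_congr (hout' y fun x hx hyK => hy x hx (hKU x hx hyK).2)
  · intro y hy
    exact hout y fun x hx hyK => hy x hx (hKU x hx hyK).1
  · intro x hx y hy h
    apply hinj hx hy
    rw [hin x hx x (hW x).1, hin y hy y (hW y).1, hGx x hx, hGx y hy] at h
    exact h
  · intro x hx
    refine ⟨p x, q x, T x hx, r x, hr x hx, fun y hy => ?_⟩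
    obtain ⟨h1, h2⟩ := hbox x hx y hy
    have h3 := hKU x hx h2
    refine ⟨h1, h3.1, ?_⟩
    rw [hin x hx _ h3.2, hin x hx x (hW x).1, hGx x hx]
    exact hGstd x hx y hy

end Vale.Agent.P265.H934
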