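import Vale.Agent.P265.H934.WallMove
import Vale.Agent.P265.H934.Standard

/-!
# Assembly of the Morse inequality for functions quadratic at infinity
-/

open Set Manifold
open scoped ContDiff Topology

namespace Vale.Agent.P265.H934

open Vale.Agent.P265.Loc Vale.Agent.P265.AS Vale.Agent.P265.H690

/-- Statement of S4: standard boxes around critical orbits. -/
def BoxStmt : Prop :=
  ∀ {V M N Z : Type} [NormedAddCommGroup V] [NormedSpace ℝ V] [MetricSpace M]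
    [ChartedSpace V M] [MetricSpace N] [NormedAddCommGroup Z] [NormedSpace ℝ Z] {n : ℕ}
    (C : CycCover M N n) {K : Set Z} {m₀ : M} {z₀ : Z} (_ : z₀ ∈ interior K) (F : M × Z → ℝ)
    {p q : ℕ} (T : (V × Z) ≃L[ℝ] (Fin p → ℝ) × (Fin q → ℝ)) {r₀ : ℝ} (_ : 0 < r₀)
    (_ : ∀ y, ‖T (y - extChartAt (𝓘(ℝ, V).prod 𝓘(ℝ, Z)) (m₀, z₀) (m₀, z₀))‖ ≤ r₀ →
      y ∈ (extChartAt (𝓘(ℝ, V).prod 𝓘(ℝ, Z)) (m₀, z₀)).target ∧
      F ((extChartAt (𝓘(ℝ, V).prod 𝓘(ℝ, Z)) (m₀, z₀)).symm y) = F (m₀, z₀) -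
        ∑ i, (T (y - extChartAt (𝓘(ℝ, V).prod 𝓘(ℝ, Z)) (m₀, z₀) (m₀, z₀))).1 i ^ 2 +
        ∑ j, (T (y - extChartAt (𝓘(ℝ, V).prod 𝓘(ℝ, Z)) (m₀, z₀) (m₀, z₀))).2 j ^ 2),
    ∃ (r : ℝ) (θ : (Fin p → ℝ) × (Fin q → ℝ) → N × Z)
      (κ : N × Z → (Fin p → ℝ) × (Fin q → ℝ)) (σ : N × Z → ℕ) (L : Set (N × Z)), r ≤ r₀ ∧
      LocalBox (Prod.map C.g id) n (univ ×ˢ K) (fun x => F (C.π x.1, x.2)) p q (F (m₀, z₀)) r
        θ κ σ L ∧ ∀ x, C.π x.1 = m₀ → x.2 = z₀ → x ∈ L ∧ κ x = 0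

/-- Statement of S5: descents at noncritical points inside the box. -/
def DescentStmt : Prop :=
  ∀ {V M N Z : Type} [NormedAddCommGroup V] [NormedSpace ℝ V] [FiniteDimensional ℝ V]
    [MetricSpace M] [CompactSpace M] [ChartedSpace V M] [IsManifold 𝓘(ℝ, V) ∞ M] [MetricSpace N]
    [CompactSpace N] [NormedAddCommGroup Z] [NormedSpace ℝ Z] [FiniteDimensional ℝ Z] {n : ℕ}
    (C : CycCover M N n) {K : Set Z} (F : M × Z → ℝ)
    (_ : ContMDiff (𝓘(ℝ, V).prod 𝓘(ℝ, Z)) 𝓘(ℝ, ℝ) ∞ F) (x₀ : N × Z) (_ : x₀.2 ∈ interior K)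
    (_ : (C.π x₀.1, x₀.2) ∉ Crit (𝓘(ℝ, V).prod 𝓘(ℝ, Z)) F),
    ∃ D, Descent (Prod.map C.g id) (univ ×ˢ K) (fun x => F (C.π x.1, x.2)) D ∧
      ∃ U ∈ 𝓝[(univ : Set N) ×ˢ K] x₀, ∀ y ∈ U, F (C.π (D 1 y).1, (D 1 y).2) < F (C.π y.1, y.2)

/-- Statement of S7(c): the bottom. -/
def BottomStmt : Prop :=
  ∀ {V M N Z k : Type} [NormedAddCommGroup V] [NormedSpace ℝ V] [MetricSpace M]
    [ChartedSpace V M] [MetricSpace N] [CompactSpace N] [NormedAddCommGroup Z] [NormedSpace ℝ Z]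
    [Field k] {n : ℕ} (C : CycCover M N n) {F : M × Z → ℝ} {p q : ℕ}
    {T : Z ≃L[ℝ] (Fin p → ℝ) × (Fin q → ℝ)} {R₁ a' a b lo hi : ℝ}
    (_ : IsBox (V := V) F T R₁ a' a b lo hi) (χ : k) (j : ℕ),
    hh C.g χ univ ∅ j ≤
      hh (Prod.map C.g id) χ ((univ : Set N) ×ˢ {z : Z | ‖(T z).1‖ ≤ a ∧ ‖(T z).2‖ ≤ b})
        {x | x ∈ (univ : Set N) ×ˢ {z : Z | ‖(T z).1‖ ≤ a ∧ ‖(T z).2‖ ≤ b} ∧
          F (C.π x.1, x.2) ≤ lo} (j + p)

section Box

variable {V : Type} [NormedAddCommGroup V] [NormedSpace ℝ V] {M : Type} [MetricSpace M]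
  [ChartedSpace V M] {Z : Type} [NormedAddCommGroup Z] [NormedSpace ℝ Z]

theorem isCompact_box [FiniteDimensional ℝ Z] {p q : ℕ}
    (T : Z ≃L[ℝ] (Fin p → ℝ) × (Fin q → ℝ)) (a b : ℝ) :
    IsCompact {z : Z | ‖(T z).1‖ ≤ a ∧ ‖(T z).2‖ ≤ b} := by
  have h1 : {z : Z | ‖(T z).1‖ ≤ a ∧ ‖(T z).2‖ ≤ b} =
      T.toHomeomorph ⁻¹' (Metric.closedBall 0 a ×ˢ Metric.closedBall 0 b) := by
    ext z
    simp
  rw [h1, T.toHomeomorph.isCompact_preimage]
  exact (isCompact_closedBall _ _).prod (isCompact_closedBall _ _)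

theorem mem_interior_box {p q : ℕ} (T : Z ≃L[ℝ] (Fin p → ℝ) × (Fin q → ℝ)) {a b : ℝ} {z : Z}
    (h1 : ‖(T z).1‖ < a) (h2 : ‖(T z).2‖ < b) :
    z ∈ interior {z : Z | ‖(T z).1‖ ≤ a ∧ ‖(T z).2‖ ≤ b} := by
  rw [mem_interior_iff_mem_nhds]
  have c1 : Continuous fun z : Z => ‖(T z).1‖ := by fun_prop
  have c2 : Continuous fun z : Z => ‖(T z).2‖ := by fun_prop
  filter_upwards [c1.continuousAt.eventually_lt_const h1,
    c2.continuousAt.eventually_lt_const h2] with y hy1 hy2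
  exact ⟨hy1.le, hy2.le⟩

end Box

/-- The Morse inequality for functions quadratic at infinity. -/
theorem morseIneq_of (hA : AbsMorse) (h4 : BoxStmt) (h5 : DescentStmt) (h7 : BottomStmt) :
    MorseIneq := by
  classical
  intro V _ _ _ M N _ _ _ _ _ _ _ n C l F hF hQ hfin
  -- modification near the critical points
  obtain ⟨R, hR0, hR⟩ : ∃ R : ℝ, (Nontrivial (EuclideanSpace ℝ (Fin l)) →
      ∃ (Q : QuadraticForm ℝ (EuclideanSpace ℝ (Fin l))),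
        (∀ v, (∀ w, QuadraticMap.polar Q v w = 0) → v = 0) ∧ ∀ x z, R ≤ ‖z‖ → F (x, z) = Q z) ∧
      ∀ x ∈ Crit (𝓘(ℝ, V).prod 𝓘(ℝ, EuclideanSpace ℝ (Fin l))) F, ‖x.2‖ < R := by
    obtain ⟨R₂, hR₂⟩ := (hfin.image fun x => ‖x.2‖).bddAbove
    by_cases hn : Nontrivial (EuclideanSpace ℝ (Fin l))
    · obtain ⟨Q, R, hQ1, hR0, hQ2⟩ := hQ hn
      refine ⟨max R (R₂ + 1), fun _ => ⟨Q, hQ1, fun x z hz => hQ2 x z ?_⟩, fun x hx => ?_⟩
      · exact (le_max_left _ _).trans hz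
      · have := hR₂ (mem_image_of_mem _ hx)
        exact lt_of_lt_of_le (lt_of_le_of_lt this (lt_add_one _)) (le_max_right _ _)
    · refine ⟨R₂ + 1, fun h => absurd h hn, fun x hx => ?_⟩
      have := hR₂ (mem_image_of_mem _ hx)
      exact lt_of_le_of_lt this (lt_add_one _)
  obtain ⟨F', hF's, hF'c, hF'o, hinj, hstd⟩ := exists_standard hF hfin
    (fun _ => {y | ‖y.2‖ < R}) (fun x hx => by
      have hc : Continuous fun y : M × EuclideanSpace ℝ (Fin l) => ‖y.2‖ := by fun_prop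
      exact hc.continuousAt.eventually_lt_const (hR x hx))
  have hQ' : QuadInf F' := by
    intro hn
    obtain ⟨Q, hQ1, hQ2⟩ := hR0 hn
    refine ⟨Q, max R 1, hQ1, lt_max_of_lt_right one_pos, fun x z hz => ?_⟩
    rw [hF'o]
    · exact hQ2 x z ((le_max_left _ _).trans hz)
    · intro y _ hy
      have : ‖z‖ < R := hy
      linarith [(le_max_left R 1).trans hz]
  obtain ⟨p₀, q₀, T, R₁, a', a, b, lo, hi, hB⟩ := exists_isBox hF's hQ'
  set K : Set (EuclideanSpace ℝ (Fin l)) := {z | ‖(T z).1‖ ≤ a ∧ ‖(T z).2‖ ≤ b} with hK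
  have hcint : ∀ x ∈ Crit (𝓘(ℝ, V).prod 𝓘(ℝ, EuclideanSpace ℝ (Fin l))) F, x.2 ∈ interior K := by
    intro x hx
    have h1 : ‖T x.2‖ ≤ R₁ := hB.crit x.1 x.2 (by rw [hF'c]; exact hx)
    have h2 := hB.R₁_lt_a'
    have h3 := hB.a'_lt
    have h4 := hB.R₁_lt_b
    have h5 := norm_fst_le (T x.2)
    have h6 := norm_snd_le (T x.2)
    exact mem_interior_box T (by linarith) (by linarith)
  -- the boxes
  have hbox : ∀ x ∈ Crit (𝓘(ℝ, V).prod 𝓘(ℝ, EuclideanSpace ℝ (Fin l))) F,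
      ∃ (p q : ℕ) (r : ℝ) (θ : (Fin p → ℝ) × (Fin q → ℝ) → N × EuclideanSpace ℝ (Fin l))
      (κ : N × EuclideanSpace ℝ (Fin l) → (Fin p → ℝ) × (Fin q → ℝ))
      (σ : N × EuclideanSpace ℝ (Fin l) → ℕ) (L : Set (N × EuclideanSpace ℝ (Fin l))),
      LocalBox (Prod.map C.g id) n (univ ×ˢ K) (fun x => F' (C.π x.1, x.2)) p q (F' x) r
        θ κ σ L ∧ ∀ y, C.π y.1 = x.1 → y.2 = x.2 → y ∈ L ∧ κ y = 0 := by
    intro x hx
    obtain ⟨p, q, S, r, hr, hS⟩ := hstd x hx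
    obtain ⟨r', θ, κ, σ, L, _, h1, h2⟩ := h4 C (hcint x hx) F' S hr
      (m₀ := x.1) (fun y hy => ⟨(hS y hy).1, (hS y hy).2.2⟩)
    exact ⟨p, q, r', θ, κ, σ, L, h1, h2⟩
  choose! p q r θ κ σ L hL hL' using hbox
  -- enumeration
  obtain ⟨m, ⟨e⟩⟩ : ∃ m : ℕ, Nonempty (Fin m ≃
      Crit (𝓘(ℝ, V).prod 𝓘(ℝ, EuclideanSpace ℝ (Fin l))) F) := by
    have := hfin.fintype
    exact ⟨_, ⟨(Fintype.equivFin _).symm⟩⟩
  have hid : ∀ (i : ℕ) (x : N × EuclideanSpace ℝ (Fin l)),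
      (Prod.map C.g id)^[i] x = (C.g^[i] x.1, x.2) := by
    intro i x
    rw [Prod.map_iterate, Function.iterate_id]
    rfl
  have hPc : IsCompact ((univ : Set N) ×ˢ K) := isCompact_univ.prod (isCompact_box T a b)
  have hF'cont : Continuous F' := hF's.continuous
  have hFt : Continuous fun x : N × EuclideanSpace ℝ (Fin l) => F' (C.π x.1, x.2) :=
    hF'cont.comp ((C.cont_π.comp continuous_fst).prodMk continuous_snd)
  have hgc : Continuous (Prod.map C.g id : N × EuclideanSpace ℝ (Fin l) → _) :=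
    C.cont_g.prodMap continuous_id
  refine ⟨p, p₀, fun {k} _ χ hχ j => ?_⟩
  refine (h7 C hB χ j).trans ?_
  have key := hA (Prod.map C.g id) n ((univ : Set N) ×ˢ K) (fun x => F' (C.π x.1, x.2)) m
    (fun i => F' (e i)) (fun i => r (e i)) (fun i => p (e i)) (fun i => q (e i))
    (fun i => θ (e i) (e i).2) (fun i => κ (e i)) (fun i => σ (e i)) (fun i => L (e i)) lo hi
    C.n_pos hPc (fun x => by simp [mem_prod]) hgc.continuousOn
    (fun x _ => by rw [hid, C.iter]) hFt.continuousOn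
    (fun x _ => by simp only [Prod.map_fst, Prod.map_snd, C.π_g, id_eq])
    (fun i i' h => e.injective (Subtype.ext (hinj (e i).2 (e i').2 h)))
    (fun i => hL _ (e i).2)
    (fun i => hB.low _ _ (hB.crit _ _ (by rw [hF'c]; exact (e i).2)))
    (fun x hx => hB.top _ _ hx.2.1 hx.2.2) ?_ χ hχ (j + p₀)
  · refine key.trans (Nat.cast_le.2 ?_)
    rw [← Set.ncard_coe_finset]
    have h8 : ((Finset.univ.filter fun i => p (e i) = j + p₀ : Finset (Fin m)) : Set (Fin m)).ncard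
        = ((fun i => (e i : M × EuclideanSpace ℝ (Fin l))) ''
          ((Finset.univ.filter fun i => p (e i) = j + p₀ : Finset (Fin m)) : Set (Fin m))).ncard :=
      (Set.ncard_image_of_injective _ (Subtype.val_injective.comp e.injective)).symm
    rw [h8]
    refine Set.ncard_le_ncard ?_ (hfin.subset fun x hx => hx.1)
    rintro _ ⟨i, hi, rfl⟩
    exact ⟨(e i).2, by simpa using hi⟩
  · intro x hx hlo hne
    have hnc : (C.π x.1, x.2) ∉ Crit (𝓘(ℝ, V).prod 𝓘(ℝ, EuclideanSpace ℝ (Fin l))) F := by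
      intro hc
      have h8 := hL' _ hc x rfl rfl
      have h9 : ((e (e.symm ⟨_, hc⟩) :
          Crit (𝓘(ℝ, V).prod 𝓘(ℝ, EuclideanSpace ℝ (Fin l))) F) :
          M × EuclideanSpace ℝ (Fin l)) = (C.π x.1, x.2) := by rw [e.apply_symm_apply]
      refine hne (e.symm ⟨_, hc⟩) ?_
      rw [h9]
      exact h8
    have ha1 : ‖(T x.2).1‖ < a := by
      rcases lt_or_eq_of_le hx.2.1 with h | h
      · exact h
      · exfalso
        have := hB.bottom (C.π x.1) x.2 (by rw [h]; exact hB.a'_lt.le) hx.2.2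
        exact absurd hlo (not_le.2 this)
    by_cases hb1 : ‖(T x.2).2‖ < b
    · exact h5 C F' hF's x (mem_interior_box T ha1 hb1) (by rw [hF'c]; exact hnc)
    · refine ⟨_, wall_descent hB C.π C.g, _,
        mem_nhdsWithin_of_mem_nhds (wall_strict hB C.π (x := x) ?_), fun y hy => hy⟩
      exact hB.R₁_lt_b.trans_le (not_lt.1 hb1)

end Vale.Agent.P265.H934
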