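import Vale.Agent.P265.H336.Iface
import Vale.Agent.P265.H690.Infinity

/-!
# The descent at the wall of the box
-/

open Set Manifold
open scoped ContDiff Topology

namespace Vale.Agent.P265.H934

open Vale.Agent.P265.Loc Vale.Agent.P265.AS Vale.Agent.P265.H690

variable {V : Type} [NormedAddCommGroup V] [NormedSpace ℝ V] {M N : Type} [MetricSpace M]
  [ChartedSpace V M] [MetricSpace N] {Z : Type} [NormedAddCommGroup Z] [NormedSpace ℝ Z]

/-- The contraction factor of the wall move. -/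
noncomputable def fac (R s t : ℝ) : ℝ := 1 - s / 2 * (1 - R / max t R)

theorem continuous_fac {R : ℝ} (hR : 0 < R) : Continuous fun q : ℝ × ℝ => fac R q.1 q.2 := by
  have h : ∀ q : ℝ × ℝ, max q.2 R ≠ 0 := fun q => (lt_max_of_lt_right hR).ne'
  unfold fac
  fun_prop (disch := exact h _)

theorem fac_pos {R : ℝ} (hR : 0 < R) {s : ℝ} (hs : s ∈ Icc (0 : ℝ) 1) (t : ℝ) :
    1 / 2 ≤ fac R s t ∧ fac R s t ≤ 1 := by
  have h0 : 0 < max t R := lt_max_of_lt_right hR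
  have h1 : R / max t R ≤ 1 := (div_le_one h0).2 (le_max_right _ _)
  have h2 : 0 ≤ R / max t R := by positivity
  have h3 := hs.1
  have h4 := hs.2
  unfold fac
  constructor <;> nlinarith

theorem fac_of_le {R : ℝ} (hR : 0 < R) (s : ℝ) {t : ℝ} (ht : t ≤ R) : fac R s t = 1 := by
  unfold fac
  rw [max_eq_right ht, div_self hR.ne']
  ring

theorem fac_zero (R t : ℝ) : fac R 0 t = 1 := by simp [fac]

theorem fac_mul_gt {R : ℝ} (hR : 0 < R) {s : ℝ} (hs : s ∈ Icc (0 : ℝ) 1) {t : ℝ} (ht : R < t) :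
    R < fac R s t * t := by
  have h1 : fac R s t * t = t - s / 2 * (t - R) := by
    unfold fac
    rw [max_eq_left ht.le]
    have : t ≠ 0 := (hR.trans ht).ne'
    field_simp
  rw [h1]
  have := hs.1
  have := hs.2
  nlinarith

theorem fac_one_lt {R : ℝ} (hR : 0 < R) {t : ℝ} (ht : R < t) : fac R 1 t < 1 := by
  unfold fac
  rw [max_eq_left ht.le]
  have h0 : 0 < t := hR.trans ht
  have : R / t < 1 := (div_lt_one h0).2 ht
  linarith

/-- The wall move. -/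
noncomputable def wall {p q : ℕ} (T : Z ≃L[ℝ] (Fin p → ℝ) × (Fin q → ℝ)) (R s : ℝ)
    (x : N × Z) : N × Z :=
  (x.1, T.symm ((T x.2).1, fac R s ‖(T x.2).2‖ • (T x.2).2))

omit [MetricSpace N] in
theorem wall_val {F : M × Z → ℝ} {p q : ℕ} {T : Z ≃L[ℝ] (Fin p → ℝ) × (Fin q → ℝ)}
    {R₁ a' a b lo hi : ℝ} (hB : IsBox (V := V) F T R₁ a' a b lo hi) (π : N → M) {s : ℝ}
    (hs : s ∈ Icc (0 : ℝ) 1) (x : N × Z) (hx : R₁ < ‖(T x.2).2‖) :
    F (π (wall T R₁ s x).1, (wall T R₁ s x).2) =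
      F (π x.1, x.2) - (1 - fac R₁ s ‖(T x.2).2‖ ^ 2) * ∑ j, (T x.2).2 j ^ 2 := by
  have hR := hB.R₁_pos
  have h1 : R₁ < ‖T x.2‖ := hx.trans_le (norm_snd_le _)
  have hf := fac_pos hR hs ‖(T x.2).2‖
  have h2 : R₁ < ‖T (wall T R₁ s x).2‖ := by
    have h3 : ‖(T (wall T R₁ s x).2).2‖ = fac R₁ s ‖(T x.2).2‖ * ‖(T x.2).2‖ := by
      simp only [wall, ContinuousLinearEquiv.apply_symm_apply, norm_smul, Real.norm_eq_abs]
      rw [abs_of_nonneg (by linarith)]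
    refine lt_of_lt_of_le ?_ (norm_snd_le _)
    rw [h3]
    exact fac_mul_gt hR hs hx
  rw [hB.quad _ _ h1, hB.quad _ _ h2]
  simp only [q0, wall, ContinuousLinearEquiv.apply_symm_apply, Pi.smul_apply, smul_eq_mul,
    mul_pow, ← Finset.mul_sum]
  ring

/-- The wall move is a descent of the box. -/
theorem wall_descent {F : M × Z → ℝ} {p q : ℕ} {T : Z ≃L[ℝ] (Fin p → ℝ) × (Fin q → ℝ)}
    {R₁ a' a b lo hi : ℝ} (hB : IsBox (V := V) F T R₁ a' a b lo hi) (π : N → M) (g : N → N) :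
    Descent (Prod.map g id) ((univ : Set N) ×ˢ {z : Z | ‖(T z).1‖ ≤ a ∧ ‖(T z).2‖ ≤ b})
      (fun x => F (π x.1, x.2)) (wall T R₁) := by
  have hR := hB.R₁_pos
  have hid : ∀ s (x : N × Z), ‖(T x.2).2‖ ≤ R₁ → wall T R₁ s x = x := by
    intro s x hx
    simp only [wall, fac_of_le hR s hx, one_smul, Prod.mk.eta,
      ContinuousLinearEquiv.symm_apply_apply]
  refine ⟨?_, ?_, ?_, ?_, ?_, ?_⟩
  · intro s hs x hx
    have hf := fac_pos hR hs ‖(T x.2).2‖
    refine ⟨mem_univ _, ?_⟩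
    have h1 : ‖(T x.2).1‖ ≤ a ∧ ‖(T x.2).2‖ ≤ b := hx.2
    simp only [wall, Set.mem_ofPred_eq, ContinuousLinearEquiv.apply_symm_apply, norm_smul,
      Real.norm_eq_abs]
    refine ⟨h1.1, ?_⟩
    rw [abs_of_nonneg (by linarith)]
    calc fac R₁ s ‖(T x.2).2‖ * ‖(T x.2).2‖ ≤ 1 * ‖(T x.2).2‖ := by
          gcongr; exact hf.2
      _ ≤ b := by rw [one_mul]; exact h1.2
  · intro s hs x _
    rcases le_or_gt ‖(T x.2).2‖ R₁ with h | h
    · rw [hid s x h]
    · rw [wall_val hB π hs x h]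
      have hf := fac_pos hR hs ‖(T x.2).2‖
      have h1 : 0 ≤ ∑ j, (T x.2).2 j ^ 2 := Finset.sum_nonneg fun j _ => sq_nonneg _
      have h2 : 0 ≤ 1 - fac R₁ s ‖(T x.2).2‖ ^ 2 := by nlinarith
      have := mul_nonneg h2 h1
      linarith
  · intro x _
    simp only [wall, fac_zero, one_smul, Prod.mk.eta, ContinuousLinearEquiv.symm_apply_apply]
  · intro s _ x _
    rfl
  · apply Continuous.continuousOn
    have h1 : Continuous fun q : ℝ × (N × Z) => fac R₁ q.1 ‖(T q.2.2).2‖ :=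
      (continuous_fac hR).comp (by fun_prop : Continuous fun q : ℝ × (N × Z) =>
        (q.1, ‖(T q.2.2).2‖))
    unfold wall
    fun_prop
  · intro x _ hx
    rcases le_or_gt ‖(T x.2).2‖ R₁ with h | h
    · exact hid 1 x h
    · exfalso
      have h01 : (1 : ℝ) ∈ Icc (0 : ℝ) 1 := ⟨zero_le_one, le_rfl⟩
      change F (π (wall T R₁ 1 x).1, (wall T R₁ 1 x).2) = _ at hx
      rw [wall_val hB π h01 x h] at hx
      have hf := fac_pos hR h01 ‖(T x.2).2‖
      have h1 : 0 < ∑ j, (T x.2).2 j ^ 2 := sum_sq_pos_of_ne_zero (by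
        rintro h0
        rw [h0, norm_zero] at h
        linarith)
      have h2 : 0 < 1 - fac R₁ 1 ‖(T x.2).2‖ ^ 2 := by
        have := fac_one_lt hR h
        nlinarith
      have := mul_pos h2 h1
      linarith

theorem wall_strict {F : M × Z → ℝ} {p q : ℕ} {T : Z ≃L[ℝ] (Fin p → ℝ) × (Fin q → ℝ)}
    {R₁ a' a b lo hi : ℝ} (hB : IsBox (V := V) F T R₁ a' a b lo hi) (π : N → M) {x : N × Z}
    (hx : R₁ < ‖(T x.2).2‖) :
    ∀ᶠ y in 𝓝 x, F (π (wall T R₁ 1 y).1, (wall T R₁ 1 y).2) < F (π y.1, y.2) := by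
  have hR := hB.R₁_pos
  have hcont : Continuous fun y : N × Z => ‖(T y.2).2‖ := by fun_prop
  filter_upwards [hcont.continuousAt.eventually_const_lt hx] with y hy
  have h01 : (1 : ℝ) ∈ Icc (0 : ℝ) 1 := ⟨zero_le_one, le_rfl⟩
  rw [wall_val hB π h01 y hy]
  have hf := fac_pos hR h01 ‖(T y.2).2‖
  have h1 : 0 < ∑ j, (T y.2).2 j ^ 2 := sum_sq_pos_of_ne_zero (by
    rintro h0
    rw [h0, norm_zero] at hy
    linarith)
  have h2 : 0 < 1 - fac R₁ 1 ‖(T y.2).2‖ ^ 2 := by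
    have := fac_one_lt hR hy
    nlinarith
  have := mul_pos h2 h1
  linarith

end Vale.Agent.P265.H934
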